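import Vale.Agent.P255.CollarDefs
import Vale.Agent.P255.Collar.Pass

/-!
The collar: nonpositive curvature outside the middle, and the index form on a passage through it.
-/

open Set MeasureTheory
open scoped ContDiff Topology

namespace Vale.Agent.P255

noncomputable section

/-- For a large number of edges the collar metric is a smooth metric, invariant under the quarter
turn, of nonpositive curvature outside the middle, with nonnegative index form on every passage
through the middle. -/
structure CollarGood (N : ℕ) : Prop where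
  metric : P216.Chord.IsMetricOn collarSet (collarMetric N)
  turn : ∀ y ∈ collarSet, ∀ u w,
    collarMetric N (collarTurn y) (collarTurn u) (collarTurn w) = collarMetric N y u w
  translate : ∀ (y : E3) (a b : ℝ), collarMetric N (y.1, y.2.1 + a, y.2.2 + b) = collarMetric N y
  warp_convex : ∀ x, 0 ≤ deriv (deriv (warp N)) x
  warp_linear : ∀ x, 4 ≤ x → warp N x = warp N 4 + deriv (warp N) 4 * (x - 4)
  warp_slope : 0 < deriv (warp N) 4 ∧ deriv (warp N) 4 < 1 / 16
  warp_pos : ∀ x ∈ Ioo (-4 : ℝ) 7, 1 / 2 < warp N x ∧ warp N x < 2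
  curv_outer : ∀ y ∈ collarSet, 1 ≤ |y.1| → ∀ u v : E3,
    collarMetric N y (curvature (collarMetric N) y u v v) u ≤ 0
  /-- A geodesic inside `|t| ≤ 2`, a test field which at each end vanishes or sits on a face. -/
  index : ∀ (x J : ℝ → E3) (a b : ℝ), a < b → IsGeoOn (collarMetric N) x a b →
    (∀ s ∈ Icc a b, |(x s).1| ≤ 2) → IsTestField J a b →
    (J a = 0 ∨ |(x a).1| = 2) → (J b = 0 ∨ |(x b).1| = 2) →
    0 ≤ indexForm (collarMetric N) x J a b

/-- The index form is nonnegative on a passage through the middle. -/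
theorem Tiny.index {N : ℕ} (hN : Tiny N) (x J : ℝ → E3) (a b : ℝ) (hab : a < b)
    (hx : IsGeoOn (collarMetric N) x a b) (hmid : ∀ s ∈ Icc a b, |(x s).1| ≤ 2)
    (hJ : IsTestField J a b) (ha : J a = 0 ∨ |(x a).1| = 2) (hb : J b = 0 ∨ |(x b).1| = 2) :
    0 ≤ indexForm (collarMetric N) x J a b := by
  have hS := hN.toSmall
  have hI : ∀ s ∈ Icc a b, x s ∈ collarSet := fun s hs => mem_slab (abs_le.1 (hmid s hs))
  by_cases hout : ∀ s ∈ Icc a b, 1 ≤ |(x s).1|
  · refine intervalIntegral.integral_nonneg hab.le fun s hs => ?_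
    have h1 : 0 ≤ collarMetric N (x s) (covDeriv (collarMetric N) x J s)
        (covDeriv (collarMetric N) x J s) := by
      rcases eq_or_ne (covDeriv (collarMetric N) x J s) 0 with h0 | h0
      · simp [h0]
      · exact (hS.isMetricOn.pos _ (hI s hs) _ h0).le
    have h2 := hS.curv_outer (x s) (hI s hs) (hout s hs) (J s) (deriv x s)
    unfold indexDensity
    linarith
  push Not at hout
  obtain ⟨s₀, hs₀, hs₁⟩ := hout
  rw [abs_lt] at hs₁
  obtain ⟨p, q, hP, hv⟩ := hx.exists_passage hS hab hmid
  obtain ⟨S, C, hC⟩ := hJ.pieces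
  have hF : Field J (deriv J) a b :=
    ⟨hJ.cont, ⟨S, C, fun s hs hn => ⟨(hC s hs hn).2.1, (hC s hs hn).2.2⟩⟩, S,
      fun s hs hn => (hC s hs hn).1.hasDerivAt⟩
  have h := hP.index_nonneg hN hF hab ⟨s₀, hs₀, hs₁.2⟩ ⟨s₀, hs₀, hs₁.1⟩ ha hb
  have hB : ∀ s ∈ Icc a b, bdryTerm (profMetric N) (x s).1 (deriv x s) (J s) =
      passB N p q (fun r => (x r).1) (fun r => (deriv x r).1) J s := fun s hs => by
    rw [passB, ← hv s hs]
  rw [(indexForm_eq hS hab hx hmid hJ).1, hB a (left_mem_Icc.2 hab.le),
    hB b (right_mem_Icc.2 hab.le),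
    intervalIntegral.integral_congr (g := passQ N p q (fun r => (x r).1) J (deriv J)) fun s hs => ?_]
  · exact h
  · rw [uIcc_of_le hab.le] at hs
    show flatQ (profMetric N) (x s).1 (deriv x s) (J s) (deriv J s) = _
    conv_lhs => rw [hv s hs]
    rw [hS.flatQ_eq (hP.mem s hs)]
    rfl

/-- The collar is good for large `N`. -/
theorem exists_collarGood : ∃ N₀ : ℕ, ∀ N, N₀ ≤ N → CollarGood N := by
  obtain ⟨N₀, hN₀⟩ := eventually_small (δ := min ((prof 3 - prof 2) / 5000) (1 / 32))
    (lt_min (div_pos prof_three_sub_two (by norm_num)) (by norm_num))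
  refine ⟨N₀, fun N hN => ?_⟩
  obtain ⟨hS, hη⟩ := hN₀ N hN
  have hT : Tiny N := ⟨hS, hη.trans (min_le_left _ _)⟩
  have hw : deriv (warp N) 4 = warpD N 4 := (hS.hasDerivAt_warp 4).deriv
  exact
    { metric := hS.isMetricOn
      turn := fun y _ u w => hS.turn_eq y u w
      translate := fun y a b => by rw [collarMetric_eq, collarMetric_eq]
      warp_convex := fun x => by rw [hS.deriv_deriv_warp]; exact hS.warpDD_nonneg x
      warp_linear := fun x hx => by rw [hw]; exact hS.warp_linear hx
      warp_slope := ⟨hw ▸ hS.warpD_four_pos, by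
        rw [hw]; linarith [hS.warpD_le 4, hη.trans (min_le_right _ _)]⟩
      warp_pos := fun x hx => by
        obtain ⟨h1, h2⟩ := hS.warp_bounds (show x ≤ 8 by linarith [hx.2])
        constructor <;> linarith
      curv_outer := hS.curv_outer
      index := hT.index }

end

end Vale.Agent.P255
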