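import Vale.Agent.P255.PieceDefs
import Vale.Agent.P216.Defs

/-!
The glued manifold: its interface.
-/

open Bundle Manifold Set
open scoped ContDiff Topology

namespace Vale.Agent.P255

noncomputable section

/-- The quarter turn in lattice coordinates. -/
def latTurn : E3 →L[ℝ] E3 := collarTurn

/-- The coordinate domain of a piece. -/
def Piece.dom3 {N : ℕ} (P : Piece N) : Set E3 := {y | (y.1, y.2.1) ∈ P.dom}

/-- A manifold made of two copies of a piece, glued along all ends by the quarter turn. -/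
structure Model {N : ℕ} (P : Piece N) where
  /-- The manifold. -/
  M : Type
  [top : TopologicalSpace M]
  [charted : ChartedSpace E3 M]
  [smooth : IsManifold 𝓘(ℝ, E3) ∞ M]
  [t2 : T2Space M]
  [compact : CompactSpace M]
  [conn : PathConnectedSpace M]
  /-- The coordinates of the two copies. -/
  proj : Bool → E3 → M
  proj_smooth : ∀ b, ContMDiffOn 𝓘(ℝ, E3) 𝓘(ℝ, E3) ∞ (proj b) P.dom3
  proj_inv : ∀ b, ∀ y ∈ P.dom3, Function.Bijective (mfderiv 𝓘(ℝ, E3) 𝓘(ℝ, E3) (proj b) y)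
  proj_surj : ∀ m : M, ∃ b, ∃ y ∈ P.dom3, proj b y = m
  proj_shift : ∀ b, ∀ y ∈ P.dom3, ∀ l : ℤ, proj b (y + (0, 0, (l : ℝ))) = proj b y
  proj_glue : ∀ e, ∀ q ∈ collarSet,
    proj true (P.endMap e (latTurn q)) = proj false (P.endMap e q)
  proj_eq : ∀ b b', ∀ y ∈ P.dom3, ∀ y' ∈ P.dom3, proj b y = proj b' y' →
    (b = b' ∧ ∃ l : ℤ, y' = y + (0, 0, (l : ℝ))) ∨
    (b ≠ b' ∧ ∃ e, ∃ q ∈ collarSet, ∃ l : ℤ, ∃ l' : ℤ,
      P.endMap e q = (if b then y' else y) + (0, 0, (l : ℝ)) ∧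
      P.endMap e (latTurn q) = (if b then y else y') + (0, 0, (l' : ℝ)))
  /-- The metric. -/
  g : ContMDiffRiemannianMetric 𝓘(ℝ, E3) ∞ E3 (fun x : M => TangentSpace 𝓘(ℝ, E3) x)
  proj_pull : ∀ b, ∀ y ∈ P.dom3, ∀ u w : E3,
    g.inner (proj b y) (mfderiv 𝓘(ℝ, E3) 𝓘(ℝ, E3) (proj b) y u)
      (mfderiv 𝓘(ℝ, E3) 𝓘(ℝ, E3) (proj b) y w) = P.metric y u w

attribute [instance] Model.top Model.charted Model.smooth Model.t2 Model.compact Model.conn

end

end Vale.Agent.P255
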