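import Vale.Agent.P255.Index
import Vale.Agent.P216.Chord.Main
import Vale.Agent.P255.LocalCN.Segment

/-!
Nonpositive curvature gives the joint CN inequality at small scale.
-/

open Bundle Manifold Set Filter
open scoped ContDiff Topology

namespace Vale.Agent.P255

noncomputable section

/-- Small scale geometry of a metric of nonpositive curvature: midpoints of close points are
unique and satisfy the joint CN inequality. -/
structure LocalCN (X : Type*) [MetricSpace X] where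
  /-- The scale. -/
  r : ℝ
  r_pos : 0 < r
  /-- The midpoint. -/
  mid : X → X → X
  cont_mid : ContinuousOn (fun q : X × X => mid q.1 q.2) {q : X × X | dist q.1 q.2 < r}
  dist_left : ∀ a b, dist a b < r → dist a (mid a b) = dist a b / 2
  dist_right : ∀ a b, dist a b < r → dist (mid a b) b = dist a b / 2
  joint : ∀ a₀ b₀ a₁ b₁, dist a₀ a₁ < r → dist a₀ b₀ < r → dist a₁ b₁ < r → dist b₀ b₁ < r →
    dist (mid a₀ a₁) (mid b₀ b₁) ^ 2 ≤
      dist a₀ b₀ ^ 2 / 2 + dist a₁ b₁ ^ 2 / 2 - (dist a₀ a₁ - dist b₀ b₁) ^ 2 / 4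
  unique : ∀ a b m, dist a b < r → dist a m = dist a b / 2 → dist m b = dist a b / 2 → m = mid a b
  connected : ∀ a b : X, dist a b < r → ∀ s ∈ Icc (0 : ℝ) 1, ∃ p : X,
    dist a p = s * dist a b ∧ dist p b = (1 - s) * dist a b

variable {E : Type*} [NormedAddCommGroup E] [NormedSpace ℝ E] [FiniteDimensional ℝ E]
  {M : Type*} [TopologicalSpace M] [ChartedSpace E M] [IsManifold 𝓘(ℝ, E) ∞ M]
  [T2Space M] [CompactSpace M] [PreconnectedSpace M]

open P216.Chord LCN in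
/-- Near a point, two segments satisfy the joint inequality at their midpoints. -/
theorem exists_joint_region
    {g : ContMDiffRiemannianMetric 𝓘(ℝ, E) ∞ E (fun x : M => TangentSpace 𝓘(ℝ, E) x)}
    (hg : HasNonposCurvature g) (p : M) :
    ∃ R > 0, ∀ (c c' : ℝ → M) (L L' : ℝ), IsSegment g L c → IsSegment g L' c' →
      gdist g p (c 0) < R → gdist g p (c 1) < R → gdist g p (c' 0) < R → gdist g p (c' 1) < R →
      gdist g (c (1 / 2)) (c' (1 / 2)) ^ 2 ≤
        gdist g (c 0) (c' 0) ^ 2 / 2 + gdist g (c 1) (c' 1) ^ 2 / 2 - (L - L') ^ 2 / 4 := by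
  letI : MetricSpace M := gMetricSpace g
  set P := Par.chart (E := E) p
  have hp : p ∈ P.W := mem_extChartAt_source p
  set y₀ := P.φ p
  have hy₀ : y₀ ∈ P.U := P.mapsφ hp
  obtain ⟨ρ, hρ, hρU, hmin⟩ := P.isMin (g := g) hy₀
  set K := Metric.closedBall y₀ (ρ / 2)
  have hKb : K ⊆ Metric.ball y₀ ρ := Metric.closedBall_subset_ball (by linarith)
  have hKU : K ⊆ P.U := hKb.trans hρU
  obtain ⟨C, hB⟩ := exists_bd (P.isMetricOn (g := g)) (isCompact_closedBall y₀ (ρ / 2))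
    (convex_closedBall y₀ (ρ / 2)) hKU
  have hC1 := hB.one
  have hC : 0 < C := zero_lt_one.trans_le hC1
  have hcur : ∀ z ∈ K, ∀ a b, P.pull g z (curv (P.pull g) z a b) a ≤ 0 := fun z hz =>
    curv_nonpos hg P (hKU hz)
  obtain ⟨η, hη⟩ : ∃ η, η = 1 / (40 * C) := ⟨_, rfl⟩
  have hη0 : 0 < η := by rw [hη]; positivity
  have hη1 : η ≤ 1 := by rw [hη, div_le_one (by positivity)]; linarith
  have hηC : C * η ≤ 1 / 40 := le_of_eq (by rw [hη]; field_simp)
  obtain ⟨R₀, hR₀, hR₀W⟩ : ∃ R₀ > 0, ∀ z, gdist g p z < R₀ → z ∈ P.W ∧ P.φ z ∈ K := by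
    have hW : P.W ∈ 𝓝 p := P.openW.mem_nhds hp
    have hK : P.φ ⁻¹' K ∈ 𝓝 p := (P.smoothφ.continuousOn.continuousAt hW).preimage_mem_nhds
      (Metric.closedBall_mem_nhds _ (by linarith))
    obtain ⟨R₀, hR₀, hsub⟩ := Metric.mem_nhds_iff.1 (inter_mem hW hK)
    exact ⟨R₀, hR₀, fun z hz => hsub (Metric.mem_ball'.2 hz)⟩
  obtain ⟨R, hR, hR1, hR2⟩ : ∃ R > 0, 16 * R ≤ R₀ ∧ C * (16 * R) ≤ η :=
    ⟨min (R₀ / 16) (η / (16 * C)), by positivity, by linarith [min_le_left (R₀ / 16) (η / (16 * C))],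
      by
        have := min_le_right (R₀ / 16) (η / (16 * C))
        rw [le_div_iff₀ (by positivity)] at this
        linarith⟩
  -- every short segment near `p` is a coordinate geodesic
  have hlen : ∀ {c : ℝ → M} {L : ℝ}, IsSegment g L c → gdist g (c 0) (c 1) = L := fun {c L} hc => by
    have := hc 0 ⟨le_rfl, zero_le_one⟩ 1 ⟨zero_le_one, le_rfl⟩
    simpa using this
  have hnear : ∀ {c : ℝ → M} {L : ℝ}, IsSegment g L c → ∀ s ∈ Icc (0 : ℝ) 1,
      gdist g p (c s) ≤ gdist g p (c 0) + L := fun {c L} hc s hs => by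
    have h := hc 0 ⟨le_rfl, zero_le_one⟩ s hs
    rw [zero_sub, abs_neg, abs_of_nonneg hs.1] at h
    have : L * s ≤ L := mul_le_of_le_one_right hc.nonneg hs.2
    linarith [gdist_triangle (g := g) p (c 0) (c s)]
  have hsol : ∀ {c : ℝ → M} {L : ℝ}, IsSegment g L c → gdist g p (c 0) < 4 * R → L ≤ 8 * R →
      (∀ s ∈ Icc (0 : ℝ) 1, c s ∈ P.W ∧ P.φ (c s) ∈ K) ∧
      ∃ v, Sol (P.pull g) K η (fun s => P.φ (c s)) v L := fun {c L} hc h0 hL => by
    have hin : ∀ s ∈ Icc (0 : ℝ) 1, c s ∈ P.W ∧ P.φ (c s) ∈ K := fun s hs =>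
      hR₀W _ (by linarith [hnear hc s hs])
    refine ⟨hin, LCN.IsSegment.exists_sol P hB hKU hc (fun s hs => (hin s hs).2) ?_ ?_⟩
    · refine hmin c 0 1 L ((⊥ : Submodule ℝ E) : Set E) zero_lt_one hc.nonneg
        (fun s hs => ⟨(hin s hs).1, hKb (hin s hs).2⟩) hc fun e he heT => ?_
      have he' : e = P.φ (c 0) := sub_eq_zero.1 (by simpa using heT)
      rw [he', P.right _ (hin 0 ⟨le_rfl, zero_le_one⟩).1, hlen hc, sub_zero, mul_one]
    · exact (mul_le_mul_of_nonneg_left (by linarith) hC.le).trans hR2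
  refine ⟨R, hR, fun c c' L L' hc hc' q0 q1 q0' q1' => ?_⟩
  obtain ⟨σ, hσ0, hσ1, hσ⟩ := exists_segment (g := g) (c 0) (c' 0)
  obtain ⟨τ, hτ0, hτ1, hτ⟩ := exists_segment (g := g) (c 1) (c' 1)
  set ρ₀ := gdist g (c 0) (c' 0) with hρ₀
  set ρ₁ := gdist g (c 1) (c' 1) with hρ₁
  have hρ₀R : ρ₀ ≤ 2 * R := by
    linarith [gdist_triangle (g := g) (c 0) p (c' 0), gdist_comm (g := g) (c 0) p]
  have hρ₁R : ρ₁ ≤ 2 * R := by
    linarith [gdist_triangle (g := g) (c 1) p (c' 1), gdist_comm (g := g) (c 1) p]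
  obtain ⟨-, vσ, Sσ⟩ := hsol (c := σ) hσ (by rw [hσ0]; linarith) (by linarith)
  obtain ⟨-, vτ, Sτ⟩ := hsol (c := τ) hτ (by rw [hτ0]; linarith) (by linarith)
  have key : ∀ n : ℕ, 0 < n → gdist g (c (1 / 2)) (c' (1 / 2)) ^ 2 ≤
      ρ₀ ^ 2 / 2 + ρ₁ ^ 2 / 2 - (L - L') ^ 2 / 4 + 1200 * C ^ 8 / n := by
    intro n hn
    have hn' : (0 : ℝ) < n := Nat.cast_pos.2 hn
    obtain ⟨h, hh⟩ : ∃ h : ℝ, h = 1 / n := ⟨_, rfl⟩
    have hh0 : 0 < h := by rw [hh]; positivity
    have hnh : (n : ℝ) * h = 1 := by rw [hh]; field_simp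
    have hh1 : h ≤ 1 := by
      have : h * 1 ≤ h * n := mul_le_mul_of_nonneg_left (by exact_mod_cast hn) hh0.le
      linarith
    have hcs : ∀ i : ℕ, ∃ ci : ℝ → M, (i = 0 → ci = c) ∧ (i = n → ci = c') ∧ ∀ _ : i ≤ n,
        ci 0 = σ (i * h) ∧ ci 1 = τ (i * h) ∧ ∃ Li, IsSegment g Li ci := by
      intro i
      by_cases h0 : i = 0
      · subst h0
        exact ⟨c, fun _ => rfl, fun e => absurd e.symm hn.ne', fun _ =>
          ⟨by simp [hσ0], by simp [hτ0], L, hc⟩⟩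
      by_cases h1 : i = n
      · subst h1
        exact ⟨c', fun e => absurd e h0, fun _ => rfl, fun _ =>
          ⟨by rw [hnh, hσ1], by rw [hnh, hτ1], L', hc'⟩⟩
      obtain ⟨ci, e0, e1, hci⟩ := exists_segment (g := g) (σ (i * h)) (τ (i * h))
      exact ⟨ci, fun e => absurd e h0, fun e => absurd e h1, fun _ => ⟨e0, e1, _, hci⟩⟩
    choose ci hci0 hcin hci using hcs
    obtain ⟨Li, hLi⟩ : ∃ Li : ℕ → ℝ, Li = fun i => gdist g (ci i 0) (ci i 1) := ⟨_, rfl⟩
    have hIcc : ∀ i ≤ n, (i : ℝ) * h ∈ Icc (0 : ℝ) 1 := fun i hi =>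
      ⟨by positivity, hnh ▸ mul_le_mul_of_nonneg_right (Nat.cast_le.2 hi) hh0.le⟩
    have hS : ∀ i ≤ n, (∀ s ∈ Icc (0 : ℝ) 1, ci i s ∈ P.W ∧ P.φ (ci i s) ∈ K) ∧
        ∃ v, Sol (P.pull g) K η (fun s => P.φ (ci i s)) v (Li i) := by
      intro i hi
      obtain ⟨e0, e1, l, hl⟩ := hci i hi
      have hl' : Li i = l := by rw [hLi]; exact hlen hl
      rw [hl']
      have a := hnear (c := σ) hσ _ (hIcc i hi)
      have b := hnear (c := τ) hτ _ (hIcc i hi)
      rw [hσ0] at a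
      rw [hτ0] at b
      refine hsol hl (by rw [e0]; linarith) ?_
      have := hlen hl
      rw [e0, e1] at this
      linarith [gdist_triangle (g := g) (σ (i * h)) p (τ (i * h)),
        gdist_comm (g := g) (σ (i * h)) p]
    obtain ⟨d, hd⟩ : ∃ d : ℕ → ℝ, d = fun i => gdist g (ci i (1 / 2)) (ci (i + 1) (1 / 2)) :=
      ⟨_, rfl⟩
    have hstep : ∀ i < n, d i ^ 2 ≤
        (ρ₀ ^ 2 / 2 + ρ₁ ^ 2 / 2) * h ^ 2 - (Li (i + 1) - Li i) ^ 2 / 4 + 1200 * C ^ 8 * h ^ 3 := by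
      intro i hi
      obtain ⟨hin, v, Sx⟩ := hS i hi.le
      obtain ⟨hin', w, Sy⟩ := hS (i + 1) hi
      obtain ⟨e0, e1, -⟩ := hci i hi.le
      obtain ⟨e0', e1', -⟩ := hci (i + 1) hi
      have hcast : ((i + 1 : ℕ) : ℝ) * h = i * h + h := by push_cast; ring
      rw [hcast] at e0' e1'
      have hle := (hIcc (i + 1) hi).2
      rw [hcast] at hle
      obtain ⟨b0, b0'⟩ := hB.chord hη1 Sσ (s := i * h) (by positivity) hh0.le hle
      obtain ⟨b1, b1'⟩ := hB.chord hη1 Sτ (s := i * h) (by positivity) hh0.le hle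
      rw [← e0, ← e0'] at b0 b0'
      rw [← e1, ← e1'] at b1 b1'
      have hH : η * h ≤ h := mul_le_of_le_one_left hh0.le hη1
      have hp := hB.pair hcur hη1 hηC Sx Sy hh1 (b0.trans hH) (b1.trans hH)
      have hhalf : (1 / 2 : ℝ) ∈ Icc (0 : ℝ) 1 := by norm_num
      have ha := (hB.apriori hη1 hηC Sx Sy (b0.trans hH) (b1.trans hH) _ hhalf).1
      obtain ⟨y, hy⟩ : ∃ y, y = P.φ (ci i (1 / 2)) := ⟨_, rfl⟩
      obtain ⟨z, hz⟩ : ∃ z, z = P.φ (ci (i + 1) (1 / 2)) := ⟨_, rfl⟩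
      rw [← hy, ← hz] at hp ha
      have hyK : y ∈ K := hy ▸ (hin _ hhalf).2
      have hzK : z ∈ K := hz ▸ (hin' _ hhalf).2
      have hdist := gdist_le_chord (g := g) P hB hKU hyK hzK
      rw [hy, hz, P.right _ (hin _ hhalf).1, P.right _ (hin' _ hhalf).1, ← hy, ← hz] at hdist
      have hdi : d i ≤ nrm (P.pull g) y (z - y) + C ^ 2 * (4 * h) ^ 2 := by
        rw [hd]
        exact hdist.trans (add_le_add le_rfl (mul_le_mul_of_nonneg_left
          (pow_le_pow_left₀ (norm_nonneg _) ha 2) (by positivity)))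
      have hd0 : 0 ≤ d i := by rw [hd]; exact gdist_nonneg _ _
      have hsq := pow_le_pow_left₀ hd0 hdi 2
      have hn1 : nrm (P.pull g) y (z - y) ^ 2 = P.pull g y (z - y) (z - y) :=
        Real.sq_sqrt (hB.nonneg hyK _)
      have hn2 : nrm (P.pull g) y (z - y) ≤ C * (4 * h) :=
        (hB.nrm_le hyK _).trans (mul_le_mul_of_nonneg_left ha hC.le)
      have q1 := mul_le_mul_of_nonneg_right hn2 (show 0 ≤ 32 * C ^ 2 * h ^ 2 by positivity)
      have q2 : C ^ 3 * h ^ 3 ≤ C ^ 8 * h ^ 3 :=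
        mul_le_mul_of_nonneg_right (pow_le_pow_right₀ hC1 (by norm_num)) (by positivity)
      have q3 : C ^ 4 * h ^ 4 ≤ C ^ 8 * h ^ 3 :=
        mul_le_mul (pow_le_pow_right₀ hC1 (by norm_num))
          (pow_le_pow_of_le_one hh0.le hh1 (by norm_num)) (by positivity) (by positivity)
      have q4 : 0 ≤ C ^ 8 * h ^ 3 := by positivity
      linarith
    have hsum : gdist g (c (1 / 2)) (c' (1 / 2)) ≤ ∑ i ∈ Finset.range n, d i := by
      have := dist_le_range_sum_dist (fun i => ci i (1 / 2)) n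
      rw [hci0 0 rfl, hcin n rfl] at this
      rw [hd]
      exact this
    have h2 := (pow_le_pow_left₀ (gdist_nonneg _ _) hsum 2).trans sq_sum_le_card_mul_sum_sq
    rw [Finset.card_range] at h2
    have h3 := h2.trans (mul_le_mul_of_nonneg_left
      (Finset.sum_le_sum fun i hi => hstep i (Finset.mem_range.1 hi)) hn'.le)
    have h4 : (L - L') ^ 2 ≤ n * ∑ i ∈ Finset.range n, (Li (i + 1) - Li i) ^ 2 := by
      have := sq_sum_le_card_mul_sum_sq (s := Finset.range n) (f := fun i => Li (i + 1) - Li i)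
      rw [Finset.card_range, Finset.sum_range_sub] at this
      have eL : Li 0 = L := by rw [hLi]; simp only [hci0 0 rfl]; exact hlen hc
      have eL' : Li n = L' := by rw [hLi]; simp only [hcin n rfl]; exact hlen hc'
      rw [eL, eL'] at this
      linarith
    simp only [Finset.sum_add_distrib, Finset.sum_sub_distrib, Finset.sum_const, Finset.card_range,
      nsmul_eq_mul, ← Finset.sum_div] at h3
    have e1 : (n : ℝ) * (n * ((ρ₀ ^ 2 / 2 + ρ₁ ^ 2 / 2) * h ^ 2)) = ρ₀ ^ 2 / 2 + ρ₁ ^ 2 / 2 := by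
      rw [hh]; field_simp
    have e2 : (n : ℝ) * (n * (1200 * C ^ 8 * h ^ 3)) = 1200 * C ^ 8 / n := by
      rw [hh]; field_simp
    linarith
  refine le_of_forall_pos_le_add fun ε hε => ?_
  obtain ⟨n, hn⟩ := exists_nat_gt (1200 * C ^ 8 / ε)
  have hn0 : (0 : ℝ) < n := lt_of_le_of_lt (by positivity) hn
  have h := key n (Nat.cast_pos.1 hn0)
  have : 1200 * C ^ 8 / n ≤ ε := by
    rw [div_le_iff₀ hn0]
    rw [div_lt_iff₀ hε] at hn
    linarith
  linarith

omit [FiniteDimensional ℝ E] in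
open P216.Chord in
/-- A midpoint lies on a segment. -/
theorem exists_segment_through
    {g : ContMDiffRiemannianMetric 𝓘(ℝ, E) ∞ E (fun x : M => TangentSpace 𝓘(ℝ, E) x)}
    {a b m : M} (h1 : gdist g a m = gdist g a b / 2) (h2 : gdist g m b = gdist g a b / 2) :
    ∃ c : ℝ → M, IsSegment g (gdist g a b) c ∧ c 0 = a ∧ c 1 = b ∧ c (1 / 2) = m := by
  obtain ⟨c₁, p0, p1, hc₁⟩ := exists_segment (g := g) a m
  obtain ⟨c₂, r0, r1, hc₂⟩ := exists_segment (g := g) m b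
  obtain ⟨D, hD⟩ : ∃ D, D = gdist g a b := ⟨_, rfl⟩
  rw [← hD] at h1 h2 ⊢
  rw [h1] at hc₁
  rw [h2] at hc₂
  obtain ⟨c, hcdef⟩ : ∃ c : ℝ → M, c = fun s => if s ≤ 1 / 2 then c₁ (2 * s) else c₂ (2 * s - 1) :=
    ⟨_, rfl⟩
  have hA : ∀ s, s ≤ 1 / 2 → c s = c₁ (2 * s) := fun s hs => by rw [hcdef]; exact if_pos hs
  have hB : ∀ s, 1 / 2 ≤ s → c s = c₂ (2 * s - 1) := fun s hs => by
    rcases hs.eq_or_lt with h | h
    · subst h
      rw [hA _ le_rfl, show (2 : ℝ) * (1 / 2) - 1 = 0 by norm_num,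
        show (2 : ℝ) * (1 / 2) = 1 by norm_num, p1, r0]
    · rw [hcdef]; exact if_neg (not_le.2 h)
  have hle : ∀ s t, 0 ≤ s → s ≤ t → t ≤ 1 → gdist g (c s) (c t) ≤ D * (t - s) := by
    intro s t hs hst ht
    rcases le_total t (1 / 2) with h | h
    · rw [hA s (hst.trans h), hA t h,
        hc₁ (2 * s) ⟨by linarith, by linarith⟩ (2 * t) ⟨by linarith, by linarith⟩,
        abs_of_nonpos (by linarith)]
      exact le_of_eq (by ring)
    rcases le_total s (1 / 2) with h' | h'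
    · refine (gdist_triangle (c s) m (c t)).trans ?_
      rw [hA s h', hB t h]
      nth_rewrite 1 [← p1]
      nth_rewrite 1 [← r0]
      rw [hc₁ (2 * s) ⟨by linarith, by linarith⟩ 1 ⟨zero_le_one, le_rfl⟩,
        hc₂ 0 ⟨le_rfl, zero_le_one⟩ (2 * t - 1) ⟨by linarith, by linarith⟩,
        abs_of_nonpos (by linarith), abs_of_nonpos (by linarith)]
      exact le_of_eq (by ring)
    · rw [hB s h', hB t h,
        hc₂ (2 * s - 1) ⟨by linarith, by linarith⟩ (2 * t - 1) ⟨by linarith, by linarith⟩,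
        abs_of_nonpos (by linarith)]
      exact le_of_eq (by ring)
  have e0 : c 0 = a := by rw [hA 0 (by norm_num), mul_zero, p0]
  have e1 : c 1 = b := by rw [hB 1 (by norm_num), show (2 : ℝ) * 1 - 1 = 1 by norm_num, r1]
  refine ⟨c, ?_, e0, e1, by rw [hA _ le_rfl, show (2 : ℝ) * (1 / 2) = 1 by norm_num, p1]⟩
  have heq : ∀ s t, 0 ≤ s → s ≤ t → t ≤ 1 → gdist g (c s) (c t) = D * (t - s) := by
    intro s t hs hst ht
    refine le_antisymm (hle s t hs hst ht) ?_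
    have u1 := hle 0 s le_rfl hs (hst.trans ht)
    have u2 := hle t 1 (hs.trans hst) ht le_rfl
    rw [e0] at u1
    rw [e1] at u2
    linarith [gdist_triangle (g := g) a (c s) b, gdist_triangle (g := g) (c s) (c t) b]
  intro s hs t ht
  rcases le_total s t with h | h
  · rw [heq s t hs.1 h ht.2, abs_sub_comm, abs_of_nonneg (sub_nonneg.2 h)]
  · rw [gdist_comm, heq t s ht.1 h hs.2, abs_of_nonneg (sub_nonneg.2 h)]

/-- Nonpositive curvature gives the local CN structure for the Riemannian distance. -/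
theorem exists_localCN
    (g : ContMDiffRiemannianMetric 𝓘(ℝ, E) ∞ E (fun x : M => TangentSpace 𝓘(ℝ, E) x))
    (hg : HasNonposCurvature g) :
    letI := P216.Chord.gMetricSpace g
    Nonempty (LocalCN M) := by
  letI : MetricSpace M := P216.Chord.gMetricSpace g
  choose R hR hjoint using exists_joint_region hg
  obtain ⟨δ, hδ, hball⟩ := lebesgue_number_lemma_of_metric (c := fun p => Metric.ball p (R p))
    isCompact_univ (fun p => Metric.isOpen_ball)
    (fun x _ => mem_iUnion.2 ⟨x, Metric.mem_ball_self (hR x)⟩)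
  obtain ⟨r, hr⟩ : ∃ r, r = δ / 2 := ⟨_, rfl⟩
  have hr0 : 0 < r := by linarith
  have hseg : ∀ a b : M, ∃ c : ℝ → M, P216.Chord.IsSegment g (dist a b) c ∧ c 0 = a ∧ c 1 = b :=
    fun a b => by
      obtain ⟨c, h0, h1, h⟩ := P216.Chord.exists_segment (g := g) a b
      exact ⟨c, h, h0, h1⟩
  choose c hc hc0 hc1 using hseg
  have hjoint' : ∀ a₀ b₀ a₁ b₁ : M, dist a₀ a₁ < r → dist a₀ b₀ < r → dist a₁ b₁ < r →
      ∀ (e e' : ℝ → M) (L L' : ℝ), P216.Chord.IsSegment g L e → P216.Chord.IsSegment g L' e' →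
        e 0 = a₀ → e 1 = a₁ → e' 0 = b₀ → e' 1 = b₁ →
        dist (e (1 / 2)) (e' (1 / 2)) ^ 2 ≤
          dist a₀ b₀ ^ 2 / 2 + dist a₁ b₁ ^ 2 / 2 - (L - L') ^ 2 / 4 := by
    intro a₀ b₀ a₁ b₁ h1 h2 h3 e e' L L' he he' u0 u1 u0' u1'
    obtain ⟨p, hp⟩ := hball a₀ (mem_univ _)
    have hin : ∀ z, dist a₀ z < δ → dist p z < R p := fun z hz =>
      Metric.mem_ball'.1 (hp (Metric.mem_ball'.2 hz))
    subst u0 u1 u0' u1'
    exact hjoint p e e' L L' he he' (hin _ (by rw [dist_self]; exact hδ)) (hin _ (by linarith))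
      (hin _ (by linarith)) (hin _ (by linarith [dist_triangle (e 0) (e 1) (e' 1)]))
  refine ⟨{
    r := r
    r_pos := hr0
    mid := fun a b => c a b (1 / 2)
    cont_mid := fun q hq => ?_
    dist_left := fun a b _ => ?_
    dist_right := fun a b _ => ?_
    joint := fun a₀ b₀ a₁ b₁ h1 h2 h3 _ => hjoint' a₀ b₀ a₁ b₁ h1 h2 h3 _ _ _ _
      (hc a₀ a₁) (hc b₀ b₁) (hc0 _ _) (hc1 _ _) (hc0 _ _) (hc1 _ _)
    unique := fun a b m h h1 h2 => ?_
    connected := fun a b _ s hs => ?_ }⟩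
  · refine Metric.continuousWithinAt_iff.2 fun ε hε => ⟨min ε r, lt_min hε hr0, fun {q'} hq' hd => ?_⟩
    rw [Prod.dist_eq, max_lt_iff, lt_min_iff, lt_min_iff] at hd
    have h := hjoint' q.1 q'.1 q.2 q'.2 hq (by rw [dist_comm]; exact hd.1.2)
      (by rw [dist_comm]; exact hd.2.2) _ _ _ _ (hc q.1 q.2) (hc q'.1 q'.2) (hc0 _ _) (hc1 _ _)
      (hc0 _ _) (hc1 _ _)
    rw [dist_comm]
    refine lt_of_pow_lt_pow_left₀ 2 hε.le (lt_of_le_of_lt h ?_)
    have h4 : dist q.1 q'.1 ^ 2 < ε ^ 2 :=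
      pow_lt_pow_left₀ (by rw [dist_comm]; exact hd.1.1) dist_nonneg two_ne_zero
    have h5 : dist q.2 q'.2 ^ 2 < ε ^ 2 :=
      pow_lt_pow_left₀ (by rw [dist_comm]; exact hd.2.1) dist_nonneg two_ne_zero
    linarith [sq_nonneg (dist q.1 q.2 - dist q'.1 q'.2)]
  · have h : dist (c a b 0) (c a b (1 / 2)) = dist a b * |0 - 1 / 2| :=
      hc a b 0 ⟨le_rfl, zero_le_one⟩ (1 / 2) (by norm_num)
    rw [hc0] at h
    rw [h, abs_of_nonpos (by norm_num)]
    ring
  · have h : dist (c a b (1 / 2)) (c a b 1) = dist a b * |1 / 2 - 1| :=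
      hc a b (1 / 2) (by norm_num) 1 ⟨zero_le_one, le_rfl⟩
    rw [hc1] at h
    rw [h, abs_of_nonpos (by norm_num)]
    ring
  · obtain ⟨e, he, e0, e1, em⟩ := exists_segment_through (g := g) (a := a) (b := b) (m := m) h1 h2
    have hj := hjoint' a a b b h (by rw [dist_self]; exact hr0) (by rw [dist_self]; exact hr0)
      e (c a b) _ _ he (hc a b) e0 e1 (hc0 _ _) (hc1 _ _)
    rw [em, dist_self, dist_self] at hj
    refine dist_le_zero.1 ?_
    have := sq_nonneg (P216.Chord.gdist g a b - dist a b)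
    by_contra hne
    have := pow_pos (not_le.1 hne) 2
    linarith
  · refine ⟨c a b s, ?_, ?_⟩
    · have h : dist (c a b 0) (c a b s) = dist a b * |0 - s| :=
        hc a b 0 ⟨le_rfl, zero_le_one⟩ s hs
      rw [hc0] at h
      rw [h, zero_sub, abs_neg, abs_of_nonneg hs.1]
      ring
    · have h : dist (c a b s) (c a b 1) = dist a b * |s - 1| :=
        hc a b s hs 1 ⟨zero_le_one, le_rfl⟩
      rw [hc1] at h
      rw [h, abs_of_nonpos (by linarith [hs.2])]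
      ring

end

end Vale.Agent.P255
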