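import Vale.Agent.P255.Cat
import Vale.Agent.P255.LocalCN
import Vale.Agent.P255.Develop.Square

/-!
From the local CN inequality to a CN space with an action of the fundamental group.
-/

open Set

namespace Vale.Agent.P255

noncomputable section

/-- The homotopy classes of paths from a base point form a CN space with an isometric action of
the fundamental group with positive systole. -/
theorem exists_action {X : Type} [MetricSpace X] [CompactSpace X] [PathConnectedSpace X]
    (L : LocalCN X)
    (_hgeo : ∀ a b : X, ∃ p : Path a b, ∀ s t : unitInterval,
      dist (p s) (p t) = dist a b * |(s : ℝ) - t|)
    (o : X) : Nonempty (CNAction (FundamentalGroup X o)) :=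
  ⟨{ space :=
      { X := Develop.Pt o
        d := Develop.dd L
        nonneg := Develop.dd_nonneg
        self := Develop.dd_self
        symm := Develop.dd_comm
        triangle := Develop.dd_triangle
        cn := Develop.exists_cn }
     base := ⟨o, Path.Homotopic.Quotient.refl o⟩
     act := Develop.act
     act_one := Develop.act_one
     act_mul := Develop.act_mul
     isom := Develop.dd_act
     sys := L.r / 4
     sys_pos := by have := L.r_pos; linarith
     sys_le := Develop.le_dd_act }⟩

end

end Vale.Agent.P255
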