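import Vale.Agent.P255.Piece.LoopRel
import Vale.Agent.P255.Piece.Phase

/-!
Existence of the piece.
-/

open Set
open scoped ContDiff Topology

namespace Vale.Agent.P255

noncomputable section

open Build

/-- The piece with `N` ends. -/
def Build.piece {N : ℕ} (h : Ok N) : Piece N where
  dom := Build.dom N
  isOpen_dom := Build.isOpen_dom
  conn_dom := isPathConnected_dom h
  metric := pieceMetric N
  isMetric := isMetricOn_pieceMetric h
  metric_fiber := pieceMetric_fiber N
  endMap := Build.endMap
  end_smooth := contDiffOn_endMap h
  end_mem e q hq := circlePt_mem_dom h e hq q.2.2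
  end_shift e q _ i j := endMap_shift e q i j
  end_inj e _ hq _ hq' l hl := endMap_inj h e hq hq' l hl
  end_fiber e q _ s := endMap_fiber e q s
  end_inv e _ hq := bijective_fderiv_endMap h e hq
  end_pull e _ hq := pieceMetric_pull h e hq
  end_disjoint _ _ hne _ hq _ hq' := endMap_disjoint h hne hq hq'
  core_compact := isCompact_core h
  end_closed e _ hz hc := endMap_closed h e hz hc
  curv _ hy hout u v := curvature_pieceMetric h hy hout u v
  z₀ := base
  z₀_mem := (low h).sub (base_mem h)
  spoke e := spokePt e (radius e 0)
  spoke_cont e := by unfold spokePt; fun_prop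
  spoke_mem e s hs := by
    have h1 := loopPt_mem h e (left_mem_uIcc : radius e 0 ∈ uIcc (radius e 0) (stdRad e)) (s / 3)
      ⟨by linarith [hs.1], by linarith [hs.2]⟩
    rw [loopPt, if_pos (by linarith [hs.2]), show 3 * (s / 3) = s by ring] at h1
    exact h1
  spoke_zero e := by simp [spokePt]
  spoke_one e := by simp [spokePt, Build.endMap, circlePt_eq_ringPt]
  order := finRotate N
  boundary P hP := by
    have hPe : ∀ e, P e = loopPath h e left_mem_uIcc := fun e =>
      Path.ext (funext fun s => Subtype.ext (hP e s))
    simp only [hPe]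
    exact loop_product h
  phase := Build.phase N
  phase_cont := continuousOn_phase h
  phase_norm _ hz := norm_phase h hz
  phase_end e := Build.phase_end h e

/-- For odd large `N` there is a piece. -/
theorem exists_piece : ∃ N₀ : ℕ, ∀ N, N₀ ≤ N → Odd N → CollarGood N → Nonempty (Piece N) :=
  ⟨5, fun _ h5 hodd hgood => ⟨Build.piece ⟨h5, hodd, hgood⟩⟩⟩

end

end Vale.Agent.P255
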