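import Mathlib
import Vale.Agent.P255.Cat.Core

/-!
Spaces with the CN inequality and isometric actions with positive systole: the algebraic
obstruction.
-/

namespace Vale.Agent.P255

noncomputable section

/-- A space with midpoints satisfying the CN inequality (of Bruhat and Tits). -/
structure CNSpace where
  /-- The points. -/
  X : Type
  /-- The distance. -/
  d : X → X → ℝ
  nonneg : ∀ x y, 0 ≤ d x y
  self : ∀ x, d x x = 0
  symm : ∀ x y, d x y = d y x
  triangle : ∀ x y z, d x z ≤ d x y + d y z
  cn : ∀ x y, ∃ m, d x m = d x y / 2 ∧ d m y = d x y / 2 ∧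
    ∀ z, d z m ^ 2 ≤ d z x ^ 2 / 2 + d z y ^ 2 / 2 - d x y ^ 2 / 4

/-- An action by isometries with displacement bounded below. -/
structure CNAction (Γ : Type) [Group Γ] where
  /-- The space. -/
  space : CNSpace
  /-- A point. -/
  base : space.X
  /-- The action. -/
  act : Γ → space.X → space.X
  act_one : ∀ x, act 1 x = x
  act_mul : ∀ γ δ x, act (γ * δ) x = act γ (act δ x)
  isom : ∀ γ x y, space.d (act γ x) (act γ y) = space.d x y
  /-- The systole. -/
  sys : ℝ
  sys_pos : 0 < sys
  sys_le : ∀ γ : Γ, γ ≠ 1 → ∀ x, sys ≤ space.d x (act γ x)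

/-- The relations of the two pieces: `h i` lies in the centraliser of `f`, the conjugation by
`c i` sends `(h i, f)` to `(f', h' i)`, and the products of the boundary loops of the two pieces
are trivial. -/
structure GraphRelations (Γ : Type) [Group Γ] where
  /-- The number of edges. -/
  N : ℕ
  /-- The fibre of the first piece. -/
  f : Γ
  /-- The fibre of the second piece. -/
  f' : Γ
  /-- The fibre of the second piece, seen at the edges of the first. -/
  h : Fin N → Γ
  /-- The fibre of the first piece, seen at the edges of the second. -/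
  h' : Fin N → Γ
  /-- The connecting elements. -/
  c : Fin N → Γ
  /-- The Euler numbers of the first piece. -/
  k : Fin N → ℤ
  /-- The Euler numbers of the second piece. -/
  k' : Fin N → ℤ
  comm : ∀ i, Commute f (h i)
  comm' : ∀ i, Commute f' (h' i)
  conj_h : ∀ i, c i * h i * (c i)⁻¹ = f'
  conj_f : ∀ i, c i * f * (c i)⁻¹ = h' i
  prod : ∃ l : List (Fin N), List.Perm l (List.finRange N) ∧
    (l.map fun i => h i * f ^ (-k i)).prod = 1
  prod' : ∃ l : List (Fin N), List.Perm l (List.finRange N) ∧
    (l.map fun i => h' i * f' ^ (-k' i)).prod = 1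
  sum : 0 < ∑ i, k i
  sum' : ∑ i, k' i < 0
  ne : f ≠ 1

/-- The distance of a CN space as a pseudometric. -/
@[reducible] def CNSpace.pseudoMetric (S : CNSpace) : PseudoMetricSpace S.X where
  dist := S.d
  dist_self := S.self
  dist_comm := S.symm
  dist_triangle := S.triangle

/-- The obstruction. -/
theorem no_action {Γ : Type} [Group Γ] (A : CNAction Γ) (R : GraphRelations Γ) : False := by
  let : PseudoMetricSpace A.space.X := A.space.pseudoMetric
  let : MulAction Γ A.space.X :=
    { smul := A.act, one_smul := A.act_one, mul_smul := A.act_mul }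
  have : IsIsometricSMul Γ A.space.X := ⟨fun γ => Isometry.of_dist_eq fun x y => A.isom γ x y⟩
  have hX : Cat.CN A.space.X := fun a b => by
    obtain ⟨m, -, -, hm⟩ := A.space.cn a b
    exact ⟨m, hm⟩
  have hpos : ∀ g : Γ, g ≠ 1 → 0 < Cat.tl A.base g := fun g hg =>
    A.sys_pos.trans_le (Cat.le_tl hX A.base fun x => A.sys_le g hg x)
  set o := A.base
  have hf0 := hpos R.f R.ne
  -- the relation of the first piece
  have key : ∀ (f : Γ) (h : Fin R.N → Γ) (k : Fin R.N → ℤ), 0 < Cat.tl o f →
      (∀ i, Commute f (h i)) →
      (∃ l : List (Fin R.N), List.Perm l (List.finRange R.N) ∧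
        (l.map fun i => h i * f ^ (-k i)).prod = 1) →
      ∑ i, Cat.ip o f (h i) = ((∑ i, k i : ℤ) : ℝ) * Cat.Q o f := by
    intro f h k hf hc hrel
    obtain ⟨l, hl, hprod⟩ := hrel
    obtain ⟨φ, hadd, hff, hip⟩ := Cat.exists_hom_ip hX o f hf
    have hone : φ 1 = 0 := by
      have := hadd 1 1 (Commute.one_right f)
      rw [one_mul] at this
      linarith
    have hk : ∀ j : ℤ, φ (f ^ j) = (j : ℝ) * Cat.Q o f := by
      intro j
      induction j using Int.induction_on with
      | zero => simpa using hone
      | succ i hi =>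
        rw [zpow_add_one, hadd _ _ ((Commute.refl f).zpow_right _), hi, hff]
        push_cast
        ring
      | pred i hi =>
        have h1 := hadd (f ^ (-(i : ℤ) - 1)) f ((Commute.refl f).zpow_right _)
        rw [← zpow_add_one, sub_add_cancel, hi, hff] at h1
        push_cast at h1 ⊢
        linarith
    have hsum : ∀ l : List (Fin R.N), φ (l.map fun i => h i * f ^ (-k i)).prod =
        (l.map fun i => Cat.ip o f (h i) - (k i : ℝ) * Cat.Q o f).sum := by
      intro l
      induction l with
      | nil => simpa using hone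
      | cons b l ih =>
        simp only [List.map_cons, List.prod_cons, List.sum_cons]
        rw [hadd _ _ ((hc b).mul_right ((Commute.refl f).zpow_right _)), hadd _ _ (hc b), ih,
          hip _ (hc b), hk]
        push_cast
        ring
    have h0 := hsum l
    rw [hprod, hone, (hl.map _).sum_eq, ← List.sum_toFinset _ (List.nodup_finRange _),
      List.toFinset_finRange, Finset.sum_sub_distrib, ← Finset.sum_mul] at h0
    push_cast
    linarith
  have hedge : ∀ i, Cat.ip o R.f' (R.h' i) = Cat.ip o R.f (R.h i) := fun i => by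
    rw [← R.conj_h i, ← R.conj_f i, Cat.ip_conj, Cat.ip_symm o (R.comm i).symm]
  have h1 := key R.f R.h R.k hf0 R.comm R.prod
  have hlhs : 0 < ((∑ i, R.k i : ℤ) : ℝ) * Cat.Q o R.f :=
    mul_pos (Int.cast_pos.2 R.sum) (pow_pos hf0 2)
  by_cases hne : R.f' = 1
  · -- then every `h i` is trivial
    have hz : ∀ i, Cat.ip o R.f (R.h i) = 0 := fun i => by
      have hh : R.h i = 1 := by
        have := R.conj_h i
        rw [hne] at this
        simpa using this
      simp [hh, Cat.ip, Cat.Q_inv]
    simp only [hz, Finset.sum_const_zero] at h1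
    linarith
  · have h2 := key R.f' R.h' R.k' (hpos _ hne) R.comm' R.prod'
    have hrhs : ((∑ i, R.k' i : ℤ) : ℝ) * Cat.Q o R.f' ≤ 0 :=
      mul_nonpos_of_nonpos_of_nonneg (Int.cast_nonpos.2 R.sum'.le) (sq_nonneg _)
    simp only [hedge] at h2
    linarith

end

end Vale.Agent.P255
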