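import Vale.Agent.P255.Collar
import Vale.Agent.P255.Model
import Vale.Agent.P255.Cat
import Vale.Agent.P255.Glue.Lift
import Vale.Agent.P255.Glue.Model
import Vale.Agent.P255.Glue.Relations

/-!
Existence of the glued manifold, and the relations in its fundamental group.
-/

open Set

namespace Vale.Agent.P255

noncomputable section

theorem exists_model {N : ℕ} (hN : 2 ≤ N) (hC : CollarGood N) (P : Piece N) :
    Nonempty (Model P) :=
  Glue.exists_model hN hC P

theorem exists_relations {N : ℕ} (hN : Odd N) (hN₂ : 2 ≤ N) {P : Piece N} (Q : Model P) :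
    ∃ o : Q.M, Nonempty (GraphRelations (FundamentalGroup Q.M o)) :=
  ⟨Q.base false, ⟨Q.relations hN₂⟩⟩

theorem exists_lift {N : ℕ} {P : Piece N} (Q : Model P) (e : Fin N) {c : ℝ → Q.M} {a b : ℝ}
    (hab : a ≤ b) (hc : ContinuousOn c (Icc a b))
    (hmem : ∀ s ∈ Icc a b, c s ∈ (fun q => Q.proj false (P.endMap e q)) '' collarSet) :
    ∃ x : ℝ → E3, ContinuousOn x (Icc a b) ∧
      ∀ s ∈ Icc a b, x s ∈ collarSet ∧ Q.proj false (P.endMap e (x s)) = c s :=
  lift_collar Q e hab hc hmem

end

end Vale.Agent.P255
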