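import Vale.Agent.P255.Defs
import Vale.Agent.P216.Chord.Var
import Vale.Agent.P216.Chord.Main

/-!
The index form in coordinates, admissible test fields, and the change of coordinates formulas.
-/

open Set MeasureTheory
open scoped ContDiff Topology

namespace Vale.Agent.P255

noncomputable section

variable {E : Type*} [NormedAddCommGroup E] [NormedSpace ℝ E]

/-- The coordinate geodesic equation on `[a, b]`, with `x` smooth near each of its times. -/
def IsGeoOn (G : E → E →L[ℝ] E →L[ℝ] ℝ) (x : ℝ → E) (a b : ℝ) : Prop :=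
  ∀ s ∈ Icc a b, ContDiffAt ℝ ∞ x s ∧ covDeriv G x (deriv x) s = 0

/-- An admissible test field: continuous, with bounded derivative, continuous off a finite set. -/
structure IsTestField (J : ℝ → E) (a b : ℝ) : Prop where
  cont : ContinuousOn J (Icc a b)
  pieces : ∃ S : Finset ℝ, ∃ C : ℝ, ∀ s ∈ Ioo a b, s ∉ S →
    DifferentiableAt ℝ J s ∧ ContinuousAt (deriv J) s ∧ ‖deriv J s‖ ≤ C

/-- The integrand of the index form. -/
def indexDensity (G : E → E →L[ℝ] E →L[ℝ] ℝ) (x J : ℝ → E) (s : ℝ) : ℝ :=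
  G (x s) (covDeriv G x J s) (covDeriv G x J s) -
    G (x s) (curvature G (x s) (J s) (deriv x s) (deriv x s)) (J s)

/-- The index form. -/
def indexForm (G : E → E →L[ℝ] E →L[ℝ] ℝ) (x J : ℝ → E) (a b : ℝ) : ℝ :=
  ∫ s in a..b, indexDensity G x J s

set_option maxSynthPendingDepth 3
set_option linter.unusedSectionVars false

variable [FiniteDimensional ℝ E] {U : Set E} {G : E → E →L[ℝ] E →L[ℝ] ℝ}

open P216.Chord

theorem hasFDerivAt_metric (hG : IsMetricOn U G) {y : E} (hy : y ∈ U) :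
    HasFDerivAt G (fderiv ℝ G y) y :=
  (((hG.smooth.contDiffAt (hG.isOpen.mem_nhds hy))).differentiableAt (by norm_num)).hasFDerivAt

theorem fderiv_metric_symm (hG : IsMetricOn U G) {y : E} (hy : y ∈ U) (z u w : E) :
    fderiv ℝ G y z u w = fderiv ℝ G y z w u := by
  have h : ∀ a b : E, HasFDerivAt (fun x => G x a b)
      (((fderiv ℝ G y).flip a).flip b) y := by
    intro a b
    have := ((hasFDerivAt_metric hG hy).clm_apply (hasFDerivAt_const a y)).clm_apply
      (hasFDerivAt_const b y)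
    refine this.congr_fderiv ?_
    ext x; simp
  have heq : (fun x => G x u w) =ᶠ[nhds y] fun x => G x w u :=
    Filter.mem_of_superset (hG.isOpen.mem_nhds hy) fun x hx => hG.symm x hx u w
  have := ((h u w).congr_of_eventuallyEq heq.symm).unique (h w u)
  exact congrArg (fun L : E →L[ℝ] ℝ => L z) this

/-- `∞` is at least two. -/
theorem two_le : minSmoothness ℝ 2 ≤ (∞ : WithTop ℕ∞) := by
  rw [minSmoothness_of_isRCLikeNormedField]
  exact WithTop.coe_le_coe.2 le_top

/-- The defining identity of the Christoffel symbols. -/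
theorem apply_christoffel (hG : IsMetricOn U G) {y : E} (hy : y ∈ U) (u w v : E) :
    G y (christoffel G y u w) v = (1 / 2 : ℝ) *
      (fderiv ℝ G y u w v + fderiv ℝ G y w u v - fderiv ℝ G y v u w) := by
  unfold christoffel
  rw [← vel, hG.apply_vel hy]
  simp

theorem christoffel_symm (hG : IsMetricOn U G) {y : E} (hy : y ∈ U) (u w : E) :
    christoffel G y u w = christoffel G y w u := by
  apply hG.injective hy
  ext v
  rw [apply_christoffel hG hy, apply_christoffel hG hy, fderiv_metric_symm hG hy v u w]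
  ring

/-- Twice the covector valued Christoffel symbols. -/
def christoffelLow (G : E → E →L[ℝ] E →L[ℝ] ℝ) (y : E) : E →L[ℝ] E →L[ℝ] (E →L[ℝ] ℝ) :=
  let A : E →L[ℝ] E →L[ℝ] (E →L[ℝ] ℝ) := fderiv ℝ G y
  let F : E →L[ℝ] E →L[ℝ] (E →L[ℝ] ℝ) := A.flip
  let S : (E →L[ℝ] E →L[ℝ] ℝ) →L[ℝ] (E →L[ℝ] E →L[ℝ] ℝ) :=
    (ContinuousLinearMap.flipₗᵢ ℝ E E ℝ).toContinuousLinearEquiv
  A + F - S.comp F

/-- The Christoffel symbols as a continuous bilinear map. -/
def christoffelCLM (G : E → E →L[ℝ] E →L[ℝ] ℝ) (y : E) : E →L[ℝ] E →L[ℝ] E :=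
  (ContinuousLinearMap.compL ℝ E (E →L[ℝ] ℝ) E (G y).inverse).comp
    ((1 / 2 : ℝ) • christoffelLow G y)

theorem christoffelCLM_apply (G : E → E →L[ℝ] E →L[ℝ] ℝ) (y u w : E) :
    christoffelCLM G y u w = christoffel G y u w := by
  simp [christoffelCLM, christoffelLow, christoffel]

theorem contDiffOn_christoffelCLM (hG : IsMetricOn U G) :
    ContDiffOn ℝ ∞ (christoffelCLM G) U := by
  have hd : ContDiffOn ℝ ∞ (fderiv ℝ G) U := hG.smooth.fderiv_of_isOpen hG.isOpen (by simp)
  have hi : ContDiffOn ℝ ∞ (fun y => (G y).inverse) U := by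
    intro y hy
    obtain ⟨e, he⟩ := hG.exists_equiv hy
    have h := (contDiffAt_map_inverse (n := ∞) e)
    rw [he] at h
    exact (h.comp y (hG.smooth.contDiffAt (hG.isOpen.mem_nhds hy))).contDiffWithinAt
  have hflip : ContDiffOn ℝ ∞ (fun y => (fderiv ℝ G y).flip) U :=
    (ContinuousLinearMap.flipₗᵢ ℝ E E (E →L[ℝ] ℝ)).contDiff.comp_contDiffOn hd
  refine ((ContinuousLinearMap.compL ℝ E (E →L[ℝ] ℝ) E).contDiff.comp_contDiffOn hi).clm_comp ?_
  exact (((hd.add hflip).sub (contDiffOn_const.clm_comp hflip)).congr fun y _ => rfl).const_smul _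

theorem contDiffOn_christoffel (hG : IsMetricOn U G) (u w : E) :
    ContDiffOn ℝ ∞ (fun y => christoffel G y u w) U :=
  ((((contDiffOn_christoffelCLM hG).clm_apply (g := fun _ => u) contDiffOn_const).clm_apply
    (g := fun _ => w) contDiffOn_const)).congr fun y _ => (christoffelCLM_apply G y u w).symm

theorem fderiv_christoffel (hG : IsMetricOn U G) {y : E} (hy : y ∈ U) (z u w : E) :
    fderiv ℝ (fun x => christoffel G x u w) y z = fderiv ℝ (christoffelCLM G) y z u w := by
  have h := (((contDiffOn_christoffelCLM hG).contDiffAt (hG.isOpen.mem_nhds hy)).differentiableAt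
    (by norm_num)).hasFDerivAt
  have h' := (h.clm_apply (hasFDerivAt_const u y)).clm_apply (hasFDerivAt_const w y)
  simp only [← christoffelCLM_apply]
  rw [h'.fderiv]
  simp

/-- The metric is parallel. -/
theorem fderiv_metric_eq (hG : IsMetricOn U G) {y : E} (hy : y ∈ U) (a b c : E) :
    fderiv ℝ G y a b c = G y (christoffel G y a b) c + G y b (christoffel G y a c) := by
  rw [hG.symm y hy b, apply_christoffel hG hy, apply_christoffel hG hy,
    fderiv_metric_symm hG hy a c b]
  ring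

/-- The second derivatives of the metric are symmetric in the last pair. -/
theorem fderiv_fderiv_metric_symm (hG : IsMetricOn U G) {y : E} (hy : y ∈ U) (a b c d : E) :
    fderiv ℝ (fderiv ℝ G) y a b c d = fderiv ℝ (fderiv ℝ G) y a b d c := by
  have hd : HasFDerivAt (fderiv ℝ G) (fderiv ℝ (fderiv ℝ G) y) y :=
    (((hG.smooth.fderiv_of_isOpen hG.isOpen (m := ∞) (by simp)).contDiffAt
      (hG.isOpen.mem_nhds hy)).differentiableAt (by norm_num)).hasFDerivAt
  have h := fun c d : E => ((hd.clm_apply (hasFDerivAt_const b y)).clm_apply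
    (hasFDerivAt_const c y)).clm_apply (hasFDerivAt_const d y)
  have heq : (fun x => fderiv ℝ G x b c d) =ᶠ[nhds y] fun x => fderiv ℝ G x b d c :=
    Filter.mem_of_superset (hG.isOpen.mem_nhds hy) fun x hx => fderiv_metric_symm hG hx b c d
  have := congrArg (fun L : E →L[ℝ] ℝ => L a) (((h c d).congr_of_eventuallyEq heq.symm).unique
    (h d c))
  simpa using this

/-- The curvature with all indices down. -/
theorem apply_curvature (hG : IsMetricOn U G) {y : E} (hy : y ∈ U) (u v w z : E) :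
    G y (curvature G y u v w) z = (1 / 2 : ℝ) *
      (fderiv ℝ (fderiv ℝ G) y u w v z - fderiv ℝ (fderiv ℝ G) y u z v w
        - fderiv ℝ (fderiv ℝ G) y v w u z + fderiv ℝ (fderiv ℝ G) y v z u w)
      - G y (christoffel G y v w) (christoffel G y u z)
      + G y (christoffel G y u w) (christoffel G y v z) := by
  have hD : HasFDerivAt (fderiv ℝ G) (fderiv ℝ (fderiv ℝ G) y) y :=
    (((hG.smooth.fderiv_of_isOpen hG.isOpen (m := ∞) (by simp)).contDiffAt
      (hG.isOpen.mem_nhds hy)).differentiableAt (by norm_num)).hasFDerivAt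
  have hc := (((contDiffOn_christoffelCLM hG).contDiffAt (hG.isOpen.mem_nhds hy)).differentiableAt
    (by norm_num)).hasFDerivAt
  have hd : ∀ a b c, G y (fderiv ℝ (christoffelCLM G) y a b c) z =
      (1 / 2 : ℝ) * (fderiv ℝ (fderiv ℝ G) y a b c z + fderiv ℝ (fderiv ℝ G) y a c b z
        - fderiv ℝ (fderiv ℝ G) y a z b c) - fderiv ℝ G y a (christoffel G y b c) z := by
    intro a b c
    have hl := ((hasFDerivAt_metric hG hy).clm_apply ((hc.clm_apply (hasFDerivAt_const b y)).clm_apply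
      (hasFDerivAt_const c y))).clm_apply (hasFDerivAt_const z y)
    have e := fun b c d : E => ((hD.clm_apply (hasFDerivAt_const b y)).clm_apply
      (hasFDerivAt_const c y)).clm_apply (hasFDerivAt_const d y)
    have hr := (((e b c z).add (e c b z)).sub (e z b c)).const_mul (1 / 2 : ℝ)
    have heq : (fun x => G x (christoffelCLM G x b c) z) =ᶠ[nhds y] fun x => (1 / 2 : ℝ) *
        (fderiv ℝ G x b c z + fderiv ℝ G x c b z - fderiv ℝ G x z b c) :=
      Filter.mem_of_superset (hG.isOpen.mem_nhds hy) fun x hx =>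
        show G x (christoffelCLM G x b c) z = _ by
          rw [christoffelCLM_apply]; exact apply_christoffel hG hx b c z
    have := congrArg (fun L : E →L[ℝ] ℝ => L a) ((hr.congr_of_eventuallyEq heq).unique hl)
    simp only [smul_apply, smul_eq_mul, sub_apply, add_apply, ContinuousLinearMap.coe_comp,
      Function.comp_apply, ContinuousLinearMap.flip_apply, zero_apply, map_zero, zero_add,
      christoffelCLM_apply] at this
    linarith
  have hs : ∀ a b c d, fderiv ℝ (fderiv ℝ G) y a b c d = fderiv ℝ (fderiv ℝ G) y b a c d :=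
    fun a b c d => congrArg (fun L : E →L[ℝ] E →L[ℝ] ℝ => L c d)
      (((hG.smooth.contDiffAt (hG.isOpen.mem_nhds hy)).isSymmSndFDerivAt two_le).eq a b)
  simp only [curvature, fderiv_christoffel hG hy, map_add, map_sub, add_apply, sub_apply, hd,
    fderiv_metric_eq hG hy u, fderiv_metric_eq hG hy v, hs v u w z]
  ring

/-- The symmetry of the Jacobi operator. -/
theorem curvature_pair_symm (hG : IsMetricOn U G) {y : E} (hy : y ∈ U) (u v w : E) :
    G y (curvature G y u v v) w = G y (curvature G y w v v) u := by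
  have hs : ∀ a b c d, fderiv ℝ (fderiv ℝ G) y a b c d = fderiv ℝ (fderiv ℝ G) y b a c d :=
    fun a b c d => congrArg (fun L : E →L[ℝ] E →L[ℝ] ℝ => L c d)
      (((hG.smooth.contDiffAt (hG.isOpen.mem_nhds hy)).isSymmSndFDerivAt two_le).eq a b)
  rw [apply_curvature hG hy, apply_curvature hG hy, christoffel_symm hG hy w v,
    christoffel_symm hG hy w u, hG.symm y hy (christoffel G y v w) (christoffel G y v u),
    christoffel_symm hG hy v u, hs u v v w, hs w v v u, hs w u v v,
    fderiv_fderiv_metric_symm hG hy v u w v, fderiv_fderiv_metric_symm hG hy v w u v,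
    fderiv_fderiv_metric_symm hG hy v v w u]
  ring

theorem contDiffOn_curvature (hG : IsMetricOn U G) :
    ContDiffOn ℝ ∞ (fun q : E × E × E × E => curvature G q.1 q.2.1 q.2.2.1 q.2.2.2)
      (U ×ˢ univ) := by
  intro q hq
  have hy : q.1 ∈ U := hq.1
  have hC : ContDiffAt ℝ ∞ (fun q : E × E × E × E => christoffelCLM G q.1) q :=
    ((contDiffOn_christoffelCLM hG).contDiffAt (hG.isOpen.mem_nhds hy)).comp q contDiffAt_fst
  have hD : ContDiffAt ℝ ∞ (fun q : E × E × E × E => fderiv ℝ (christoffelCLM G) q.1) q :=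
    (((contDiffOn_christoffelCLM hG).fderiv_of_isOpen hG.isOpen (m := ∞) (by simp)).contDiffAt
      (hG.isOpen.mem_nhds hy)).comp q contDiffAt_fst
  have hu : ContDiffAt ℝ ∞ (fun q : E × E × E × E => q.2.1) q := contDiffAt_snd.fst
  have hv : ContDiffAt ℝ ∞ (fun q : E × E × E × E => q.2.2.1) q := contDiffAt_snd.snd.fst
  have hw : ContDiffAt ℝ ∞ (fun q : E × E × E × E => q.2.2.2) q := contDiffAt_snd.snd.snd
  refine ((((((hD.clm_apply hu).clm_apply hv).clm_apply hw).sub
    (((hD.clm_apply hv).clm_apply hu).clm_apply hw)).add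
    ((hC.clm_apply hu).clm_apply ((hC.clm_apply hv).clm_apply hw))).sub
    ((hC.clm_apply hv).clm_apply ((hC.clm_apply hu).clm_apply hw))).contDiffWithinAt.congr
    (fun r hr => ?_) ?_
  · simp only [curvature, fderiv_christoffel hG hr.1, christoffelCLM_apply]
  · simp only [curvature, fderiv_christoffel hG hy, christoffelCLM_apply]

theorem continuousOn_curvature (hG : IsMetricOn U G) :
    ContinuousOn (fun q : E × E × E × E => curvature G q.1 q.2.1 q.2.2.1 q.2.2.2)
      (U ×ˢ univ) :=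
  (contDiffOn_curvature hG).continuousOn

/-- The derivative of an inner product along a curve. -/
theorem hasDerivAt_metric (hG : IsMetricOn U G) {x ξ η : ℝ → E} {s : ℝ} (hx : x s ∈ U)
    (hxd : DifferentiableAt ℝ x s) (hξ : DifferentiableAt ℝ ξ s) (hη : DifferentiableAt ℝ η s) :
    HasDerivAt (fun r => G (x r) (ξ r) (η r))
      (G (x s) (covDeriv G x ξ s) (η s) + G (x s) (ξ s) (covDeriv G x η s)) s := by
  have h := (((hasFDerivAt_metric hG hx).comp_hasDerivAt s hxd.hasDerivAt).clm_apply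
    hξ.hasDerivAt).clm_apply hη.hasDerivAt
  refine h.congr_deriv ?_
  simp only [covDeriv, map_add, add_apply, Function.comp_apply]
  rw [fderiv_metric_eq hG hx]
  ring

/-- The geodesic equation is the Euler-Lagrange equation of the energy. -/
theorem covDeriv_deriv_eq_zero_iff (hG : IsMetricOn U G) {x : ℝ → E} {s : ℝ} (hx : x s ∈ U)
    (hxd : ContDiffAt ℝ ∞ x s) : covDeriv G x (deriv x) s = 0 ↔ EL G x s := by
  have h1 : DifferentiableAt ℝ x s := hxd.differentiableAt (by norm_num)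
  have h2 : DifferentiableAt ℝ (deriv x) s :=
    (((hxd.fderiv_right (m := ∞) (by simp)).clm_apply (contDiffAt_const (c := (1 : ℝ)))).differentiableAt
      (by norm_num)).congr_of_eventuallyEq (Filter.Eventually.of_forall fun r => fderiv_apply_one_eq_deriv.symm)
  have key : ∀ v, deriv (fun r => G (x r) (deriv x r) v) s =
      G (x s) (covDeriv G x (deriv x) s) v +
        (1 / 2 : ℝ) * fderiv ℝ (fun y => G y (deriv x s) (deriv x s)) (x s) v := by
    intro v
    rw [(((((hasFDerivAt_metric hG hx).clm_apply (hasFDerivAt_const (deriv x s) (x s))).clm_apply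
      (hasFDerivAt_const (deriv x s) (x s)))).fderiv)]
    rw [(hasDerivAt_metric hG hx h1 h2 (differentiableAt_const v)).deriv]
    simp only [covDeriv, deriv_const, zero_add, add_apply, ContinuousLinearMap.coe_comp,
      Function.comp_apply, ContinuousLinearMap.flip_apply, zero_apply, map_zero]
    rw [hG.symm _ hx (deriv x s), apply_christoffel hG hx,
      fderiv_metric_symm hG hx (deriv x s) v (deriv x s)]
    ring
  constructor
  · intro h v
    rw [key, h]
    simp
  · intro h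
    refine hG.injective hx ?_
    ext v
    have := key v
    rw [h v] at this
    rw [map_zero, zero_apply]
    linarith

section Naturality

variable {U' : Set E} {G' : E → E →L[ℝ] E →L[ℝ] ℝ} {Φ : E → E}

theorem hasFDerivAt_map (hU : IsOpen U) (hΦ : ContDiffOn ℝ ∞ Φ U) {y : E} (hy : y ∈ U) :
    HasFDerivAt Φ (fderiv ℝ Φ y) y ∧
      HasFDerivAt (fderiv ℝ Φ) (fderiv ℝ (fderiv ℝ Φ) y) y ∧
      HasFDerivAt (fderiv ℝ (fderiv ℝ Φ)) (fderiv ℝ (fderiv ℝ (fderiv ℝ Φ)) y) y := by
  have h1 : ContDiffOn ℝ ∞ (fderiv ℝ Φ) U := hΦ.fderiv_of_isOpen hU (by simp)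
  have h2 : ContDiffOn ℝ ∞ (fderiv ℝ (fderiv ℝ Φ)) U := h1.fderiv_of_isOpen hU (by simp)
  exact ⟨((hΦ.contDiffAt (hU.mem_nhds hy)).differentiableAt (by norm_num)).hasFDerivAt,
    ((h1.contDiffAt (hU.mem_nhds hy)).differentiableAt (by norm_num)).hasFDerivAt,
    ((h2.contDiffAt (hU.mem_nhds hy)).differentiableAt (by norm_num)).hasFDerivAt⟩

/-- The transformation rule of the Christoffel symbols. -/
theorem christoffel_map (hG : IsMetricOn U G)
    (hG' : IsMetricOn U' G') (hΦ : ContDiffOn ℝ ∞ Φ U) (hmaps : MapsTo Φ U U')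
    (hpull : ∀ y ∈ U, ∀ u w, G' (Φ y) (fderiv ℝ Φ y u) (fderiv ℝ Φ y w) = G y u w)
    {y : E} (hy : y ∈ U) (u w : E) :
    christoffel G' (Φ y) (fderiv ℝ Φ y u) (fderiv ℝ Φ y w) + fderiv ℝ (fderiv ℝ Φ) y u w =
      fderiv ℝ Φ y (christoffel G y u w) := by
  obtain ⟨h1, h2, -⟩ := hasFDerivAt_map hG.isOpen hΦ hy
  have hy' : Φ y ∈ U' := hmaps hy
  have hsymm : ∀ a b, fderiv ℝ (fderiv ℝ Φ) y a b = fderiv ℝ (fderiv ℝ Φ) y b a :=
    ((hΦ.contDiffAt (hG.isOpen.mem_nhds hy)).isSymmSndFDerivAt two_le).eq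
  have hd : ∀ z a b, fderiv ℝ G y z a b =
      fderiv ℝ G' (Φ y) (fderiv ℝ Φ y z) (fderiv ℝ Φ y a) (fderiv ℝ Φ y b) +
        G' (Φ y) (fderiv ℝ (fderiv ℝ Φ) y z a) (fderiv ℝ Φ y b) +
        G' (Φ y) (fderiv ℝ Φ y a) (fderiv ℝ (fderiv ℝ Φ) y z b) := by
    intro z a b
    have hl := ((((hasFDerivAt_metric hG' hy').comp y h1)).clm_apply
      (h2.clm_apply (hasFDerivAt_const a y))).clm_apply (h2.clm_apply (hasFDerivAt_const b y))
    have hr := ((hasFDerivAt_metric hG hy).clm_apply (hasFDerivAt_const a y)).clm_apply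
      (hasFDerivAt_const b y)
    have heq : (fun x => G x a b) =ᶠ[nhds y]
        fun x => (G' ∘ Φ) x (fderiv ℝ Φ x a) (fderiv ℝ Φ x b) :=
      Filter.mem_of_superset (hG.isOpen.mem_nhds hy) fun x hx => (hpull x hx a b).symm
    have := congrArg (fun L : E →L[ℝ] ℝ => L z) ((hl.congr_of_eventuallyEq heq).unique hr)
    simp only [Function.comp_apply, add_apply, ContinuousLinearMap.coe_comp,
      ContinuousLinearMap.flip_apply, zero_apply, map_zero, zero_add] at this
    linarith
  have hinj : Function.Injective (fderiv ℝ Φ y) := by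
    refine (injective_iff_map_eq_zero _).2 fun a ha => ?_
    refine hG.injective hy (a₁ := a) (a₂ := 0) ?_
    ext b
    rw [map_zero, zero_apply, ← hpull y hy, ha]
    simp
  obtain hsurj := (LinearMap.injective_iff_surjective (f := (fderiv ℝ Φ y).toLinearMap)).1 hinj
  apply hG'.injective hy'
  ext b
  obtain ⟨v, rfl⟩ := hsurj b
  change G' (Φ y) _ (fderiv ℝ Φ y v) = G' (Φ y) _ (fderiv ℝ Φ y v)
  rw [hpull y hy, apply_christoffel hG hy, map_add, add_apply,
    apply_christoffel hG' hy', hd u w v, hd w u v, hd v u w,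
    hG'.symm _ hy' (fderiv ℝ Φ y u) (fderiv ℝ (fderiv ℝ Φ) y v w),
    hG'.symm _ hy' (fderiv ℝ Φ y u) (fderiv ℝ (fderiv ℝ Φ) y w v),
    hG'.symm _ hy' (fderiv ℝ Φ y w) (fderiv ℝ (fderiv ℝ Φ) y u v), hsymm w u, hsymm v u,
    hsymm v w]
  ring

/-- Naturality of the covariant derivative under a change of coordinates `Φ` with `Φ^* G' = G`. -/
theorem covDeriv_map (hG : IsMetricOn U G)
    (hG' : IsMetricOn U' G') (hΦ : ContDiffOn ℝ ∞ Φ U) (hmaps : MapsTo Φ U U')
    (hpull : ∀ y ∈ U, ∀ u w, G' (Φ y) (fderiv ℝ Φ y u) (fderiv ℝ Φ y w) = G y u w)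
    {x ξ : ℝ → E} {s : ℝ} (hx : x s ∈ U) (hxd : DifferentiableAt ℝ x s)
    (hξ : DifferentiableAt ℝ ξ s) :
    covDeriv G' (Φ ∘ x) (fun r => fderiv ℝ Φ (x r) (ξ r)) s =
      fderiv ℝ Φ (x s) (covDeriv G x ξ s) := by
  obtain ⟨h1, h2, -⟩ := hasFDerivAt_map hG.isOpen hΦ hx
  have e1 : deriv (Φ ∘ x) s = fderiv ℝ Φ (x s) (deriv x s) :=
    (h1.comp_hasDerivAt s hxd.hasDerivAt).deriv
  have e2 : deriv (fun r => fderiv ℝ Φ (x r) (ξ r)) s =
      fderiv ℝ (fderiv ℝ Φ) (x s) (deriv x s) (ξ s) + fderiv ℝ Φ (x s) (deriv ξ s) :=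
    ((h2.comp_hasDerivAt s hxd.hasDerivAt).clm_apply hξ.hasDerivAt).deriv
  simp only [covDeriv, e1, e2, Function.comp_apply, map_add,
    ← christoffel_map hG hG' hΦ hmaps hpull hx]
  abel

/-- Naturality of the curvature. -/
theorem curvature_map (hG : IsMetricOn U G)
    (hG' : IsMetricOn U' G') (hΦ : ContDiffOn ℝ ∞ Φ U) (hmaps : MapsTo Φ U U')
    (hpull : ∀ y ∈ U, ∀ u w, G' (Φ y) (fderiv ℝ Φ y u) (fderiv ℝ Φ y w) = G y u w)
    {y : E} (hy : y ∈ U) (u v w : E) :
    curvature G' (Φ y) (fderiv ℝ Φ y u) (fderiv ℝ Φ y v) (fderiv ℝ Φ y w) =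
      fderiv ℝ Φ y (curvature G y u v w) := by
  obtain ⟨h1, h2, h3⟩ := hasFDerivAt_map hG.isOpen hΦ hy
  have hy' : Φ y ∈ U' := hmaps hy
  have hc := (((contDiffOn_christoffelCLM hG).contDiffAt (hG.isOpen.mem_nhds hy)).differentiableAt
    (by norm_num)).hasFDerivAt
  have hc' := (((contDiffOn_christoffelCLM hG').contDiffAt
    (hG'.isOpen.mem_nhds hy')).differentiableAt (by norm_num)).hasFDerivAt
  have hD2 : IsSymmSndFDerivAt ℝ (fderiv ℝ Φ) y :=
    ((hΦ.fderiv_of_isOpen hG.isOpen (m := ∞) (by simp)).contDiffAt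
      (hG.isOpen.mem_nhds hy)).isSymmSndFDerivAt two_le
  have hsymm : ∀ a b, fderiv ℝ (fderiv ℝ Φ) y a b = fderiv ℝ (fderiv ℝ Φ) y b a :=
    ((hΦ.contDiffAt (hG.isOpen.mem_nhds hy)).isSymmSndFDerivAt two_le).eq
  have hd : ∀ a b c,
      fderiv ℝ (christoffelCLM G') (Φ y) (fderiv ℝ Φ y a) (fderiv ℝ Φ y b) (fderiv ℝ Φ y c) =
        fderiv ℝ (fderiv ℝ Φ) y a (christoffel G y b c) +
          fderiv ℝ Φ y (fderiv ℝ (christoffelCLM G) y a b c) -
          fderiv ℝ (fderiv ℝ (fderiv ℝ Φ)) y a b c -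
          christoffelCLM G' (Φ y) (fderiv ℝ (fderiv ℝ Φ) y a b) (fderiv ℝ Φ y c) -
          christoffelCLM G' (Φ y) (fderiv ℝ Φ y b) (fderiv ℝ (fderiv ℝ Φ) y a c) := by
    intro a b c
    have hl := ((((hc'.comp y h1)).clm_apply (h2.clm_apply (hasFDerivAt_const b y))).clm_apply
      (h2.clm_apply (hasFDerivAt_const c y))).add
      ((h3.clm_apply (hasFDerivAt_const b y)).clm_apply (hasFDerivAt_const c y))
    have hr := h2.clm_apply
      ((hc.clm_apply (hasFDerivAt_const b y)).clm_apply (hasFDerivAt_const c y))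
    have heq : (fun x => fderiv ℝ Φ x (christoffelCLM G x b c)) =ᶠ[nhds y]
        fun x => (christoffelCLM G' ∘ Φ) x (fderiv ℝ Φ x b) (fderiv ℝ Φ x c) +
          fderiv ℝ (fderiv ℝ Φ) x b c :=
      Filter.mem_of_superset (hG.isOpen.mem_nhds hy) fun x hx =>
        show fderiv ℝ Φ x (christoffelCLM G x b c) = (christoffelCLM G' ∘ Φ) x (fderiv ℝ Φ x b)
            (fderiv ℝ Φ x c) + fderiv ℝ (fderiv ℝ Φ) x b c by
          simp only [Function.comp_apply, christoffelCLM_apply]
          exact (christoffel_map hG hG' hΦ hmaps hpull hx b c).symm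
    have := congrArg (fun L : E →L[ℝ] E => L a) ((hl.congr_of_eventuallyEq heq).unique hr)
    simp only [Function.comp_apply, add_apply, ContinuousLinearMap.coe_comp,
      ContinuousLinearMap.flip_apply, zero_apply, map_zero, zero_add,
      christoffelCLM_apply] at this ⊢
    linear_combination (norm := module) this
  have hm : ∀ a b, fderiv ℝ (fderiv ℝ Φ) y a b =
      fderiv ℝ Φ y (christoffel G y a b) -
        christoffel G' (Φ y) (fderiv ℝ Φ y a) (fderiv ℝ Φ y b) := fun a b =>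
    eq_sub_of_add_eq' (christoffel_map hG hG' hΦ hmaps hpull hy a b)
  simp only [curvature, fderiv_christoffel hG hy, fderiv_christoffel hG' hy', hd,
    hsymm v u, hD2.eq v u, map_add, map_sub]
  simp only [hm, ← christoffelCLM_apply, map_sub]
  abel

end Naturality

end

end Vale.Agent.P255
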