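import Vale.Agent.P255.Space
import Vale.Agent.P255.Index

/-!
The profiles and the collar metric.
-/

open Set MeasureTheory
open scoped ContDiff Topology

namespace Vale.Agent.P255

noncomputable section

/-- The basic flat profile. -/
def prof : ℝ → ℝ := expNegInvGlue

/-- Its primitive. -/
def profInt (x : ℝ) : ℝ := ∫ s in (0 : ℝ)..x, prof s

/-- The mixing profile. -/
def mixInt (t : ℝ) : ℝ := ∫ s in (-1 : ℝ)..t, prof (1 + s) * prof (1 - s)

/-- The weight of the mixed term. -/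
def mu : ℝ := 1 / 100

/-- The small parameter of the model with `N` edges. -/
def eps (N : ℕ) : ℝ := 1 / (N : ℝ)

/-- The size of the concave perturbation. -/
def eta (N : ℕ) : ℝ := 2 * eps N / (mu * mixInt 1)

/-- The raw warping function `(1 - ε² - η h)^(-1/2)`. -/
def warp₀ (N : ℕ) (x : ℝ) : ℝ :=
  (Real.sqrt (1 - eps N ^ 2 - eta N * profInt x))⁻¹

/-- The warping function: equal to `warp₀` on `x ≤ 3`, convex, linear on `x ≥ 4`. -/
def warp (N : ℕ) (x : ℝ) : ℝ :=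
  warp₀ N 0 + ∫ y in (0 : ℝ)..x, ∫ s in (0 : ℝ)..y,
    Real.smoothTransition (4 - s) * deriv (deriv (warp₀ N)) s

/-- The coefficient of `a²` of the cometric for `|t| ≤ 2`. -/
def coA (N : ℕ) (t : ℝ) : ℝ := 1 - eta N * profInt (1 + t)

/-- The coefficient of `b²`. -/
def coB (N : ℕ) (t : ℝ) : ℝ := 1 - eta N * profInt (1 - t)

/-- Half the coefficient of `a b`. -/
def coC (N : ℕ) (t : ℝ) : ℝ := -eps N + eta N * mu * mixInt t

/-- The bilinear form with diagonal `1, A, B` and off-diagonal `C` in the torus block. -/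
def collarForm (A B C : ℝ) : E3 →L[ℝ] E3 →L[ℝ] ℝ :=
  let pt : E3 →L[ℝ] ℝ := ContinuousLinearMap.fst ℝ ℝ (ℝ × ℝ)
  let pa : E3 →L[ℝ] ℝ :=
    (ContinuousLinearMap.fst ℝ ℝ ℝ).comp (ContinuousLinearMap.snd ℝ ℝ (ℝ × ℝ))
  let pb : E3 →L[ℝ] ℝ :=
    (ContinuousLinearMap.snd ℝ ℝ ℝ).comp (ContinuousLinearMap.snd ℝ ℝ (ℝ × ℝ))
  pt.smulRight pt + A • pa.smulRight pa + B • pb.smulRight pb +
    C • (pa.smulRight pb + pb.smulRight pa)

/-- The collar metric in the coordinates `(t, Xa, Xb)`. -/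
def collarMetric (N : ℕ) (y : E3) : E3 →L[ℝ] E3 →L[ℝ] ℝ :=
  let t := y.1
  let ε := eps N
  if t < -(3 / 2 : ℝ) then
    collarForm (1 + warp N (1 - t) ^ 2 * ε ^ 2) (warp N (1 - t) ^ 2) (warp N (1 - t) ^ 2 * ε)
  else if 3 / 2 < t then
    collarForm (warp N (1 + t) ^ 2) (1 + warp N (1 + t) ^ 2 * ε ^ 2) (-(warp N (1 + t) ^ 2 * ε))
  else
    let d := coA N t * coB N t - coC N t ^ 2
    collarForm (coB N t / d) (coA N t / d) (-(coC N t) / d)

/-- The domain of the collar. -/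
def collarSet : Set E3 := {y | y.1 ∈ Ioo (-5 : ℝ) 5}

/-- The quarter turn exchanging the two sides. -/
def collarTurn : E3 →L[ℝ] E3 :=
  (-ContinuousLinearMap.fst ℝ ℝ (ℝ × ℝ)).prod
    (((ContinuousLinearMap.snd ℝ ℝ ℝ).comp (ContinuousLinearMap.snd ℝ ℝ (ℝ × ℝ))).prod
      (-(ContinuousLinearMap.fst ℝ ℝ ℝ).comp (ContinuousLinearMap.snd ℝ ℝ (ℝ × ℝ))))

end

end Vale.Agent.P255
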