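import Vale.Agent.P216.Defs

/-!
Curvature, nonpositive curvature, Jacobi fields and conjugate points, in charts.
-/

open Bundle Manifold
open scoped ContDiff Topology

namespace Vale.Agent.P255

noncomputable section

variable {E : Type*} [NormedAddCommGroup E] [NormedSpace ℝ E]

/-- The Christoffel symbol of the coordinate metric `G` at `y`: the vector whose `G`-inner product
with `v` is `(1/2) (D_u G (w, v) + D_w G (u, v) - D_v G (u, w))`. -/
def christoffel (G : E → E →L[ℝ] E →L[ℝ] ℝ) (y u w : E) : E :=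
  (G y).inverse ((1 / 2 : ℝ) •
    (fderiv ℝ G y u w + fderiv ℝ G y w u - ((fderiv ℝ G y).flip u).flip w))

/-- The curvature `R (u, v) w` of the coordinate metric `G` at `y`, with the convention
`R (u, v) = [∇_u, ∇_v]` for coordinate fields. -/
def curvature (G : E → E →L[ℝ] E →L[ℝ] ℝ) (y u v w : E) : E :=
  fderiv ℝ (fun z => christoffel G z v w) y u - fderiv ℝ (fun z => christoffel G z u w) y v
    + christoffel G y u (christoffel G y v w) - christoffel G y v (christoffel G y u w)

/-- The covariant derivative, along the coordinate curve `x`, of the coordinate field `ξ`. -/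
def covDeriv (G : E → E →L[ℝ] E →L[ℝ] ℝ) (x ξ : ℝ → E) (s : ℝ) : E :=
  deriv ξ s + christoffel G (x s) (deriv x s) (ξ s)

variable {M : Type*} [TopologicalSpace M] [ChartedSpace E M] [IsManifold 𝓘(ℝ, E) ∞ M]

/-- All sectional curvatures are nonpositive: `g (R (u, v) v, u) ≤ 0` for all tangent vectors. -/
def HasNonposCurvature
    (g : ContMDiffRiemannianMetric 𝓘(ℝ, E) ∞ E (fun x : M => TangentSpace 𝓘(ℝ, E) x)) : Prop :=
  ∀ (p : M) (u v : E),
    P216.metricInChart g p (extChartAt 𝓘(ℝ, E) p p)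
      (curvature (P216.metricInChart g p) (extChartAt 𝓘(ℝ, E) p p) u v v) u ≤ 0

/-- The coordinates, in the chart centred at `p`, of a vector field along a curve. -/
def fieldInChart (p : M) (c : ℝ → M) (J : ∀ t, TangentSpace 𝓘(ℝ, E) (c t)) (s : ℝ) : E :=
  mfderiv 𝓘(ℝ, E) 𝓘(ℝ, E) (extChartAt 𝓘(ℝ, E) p) (c s) (J s)

/-- A Jacobi field along `c`: a smooth field with `J'' + R (J, c') c' = 0`, read at each time `t`
in the chart centred at `c t`. -/
def IsJacobiField
    (g : ContMDiffRiemannianMetric 𝓘(ℝ, E) ∞ E (fun x : M => TangentSpace 𝓘(ℝ, E) x))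
    (c : ℝ → M) (J : ∀ t, TangentSpace 𝓘(ℝ, E) (c t)) : Prop :=
  ∀ t : ℝ,
    let G := P216.metricInChart g (c t)
    let x : ℝ → E := fun s => extChartAt 𝓘(ℝ, E) (c t) (c s)
    let ξ : ℝ → E := fieldInChart (c t) c J
    ContDiffAt ℝ ∞ ξ t ∧
      covDeriv G x (covDeriv G x ξ) t + curvature G (x t) (ξ t) (deriv x t) (deriv x t) = 0

/-- No conjugate points: a Jacobi field along a geodesic vanishing at two distinct times is zero. -/
def NoConjugatePoints
    (g : ContMDiffRiemannianMetric 𝓘(ℝ, E) ∞ E (fun x : M => TangentSpace 𝓘(ℝ, E) x)) : Prop :=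
  ∀ c : ℝ → M, P216.IsGeodesic g c → ∀ J : ∀ t, TangentSpace 𝓘(ℝ, E) (c t),
    IsJacobiField g c J → ∀ a b : ℝ, a ≠ b → J a = 0 → J b = 0 → ∀ t, J t = 0

end

end Vale.Agent.P255
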