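import Mathlib

/-!
The model space of the three-manifold.
-/

namespace Vale.Agent.P255

/-- The model space. -/
abbrev E3 : Type := ℝ × ℝ × ℝ

end Vale.Agent.P255
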