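import Vale.Agent.P255.CollarDefs

/-!
The interface of one piece: a planar domain times the circle, with `N` ends.
-/

open Set
open scoped ContDiff Topology

namespace Vale.Agent.P255

noncomputable section

/-- The map from lattice coordinates `(t, q₁, q₂)` to collar coordinates `(t, Xa, Xb)`. -/
def latMap (N : ℕ) : E3 →L[ℝ] E3 :=
  let pt : E3 →L[ℝ] ℝ := ContinuousLinearMap.fst ℝ ℝ (ℝ × ℝ)
  let p₁ : E3 →L[ℝ] ℝ :=
    (ContinuousLinearMap.fst ℝ ℝ ℝ).comp (ContinuousLinearMap.snd ℝ ℝ (ℝ × ℝ))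
  let p₂ : E3 →L[ℝ] ℝ :=
    (ContinuousLinearMap.snd ℝ ℝ ℝ).comp (ContinuousLinearMap.snd ℝ ℝ (ℝ × ℝ))
  pt.prod ((p₁ + eps N • p₂).prod (p₂ - eps N • p₁))

/-- The collar metric in lattice coordinates. -/
def latMetric (N : ℕ) (y : E3) : E3 →L[ℝ] E3 →L[ℝ] ℝ :=
  (collarMetric N (latMap N y)).bilinearComp (latMap N) (latMap N)

/-- The Euler number of an end of a piece: one for the first end, zero for the others. -/
def euler {N : ℕ} (e : Fin N) : ℤ := if e.val = 0 then 1 else 0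

/-- The translation of the lattice coordinates by an integral vector. -/
def latShift (i j : ℤ) : E3 := (0, (i : ℝ), (j : ℝ))

/-- A piece: a planar domain `dom` times the circle, in coordinates `(x₁, x₂, θ)` with `θ` taken
modulo one, with `N` ends each parametrised by a collar. -/
structure Piece (N : ℕ) where
  /-- The planar domain. -/
  dom : Set (ℝ × ℝ)
  isOpen_dom : IsOpen dom
  /-- The domain is path connected. -/
  conn_dom : IsPathConnected dom
  /-- The metric. -/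
  metric : E3 → E3 →L[ℝ] E3 →L[ℝ] ℝ
  isMetric : P216.Chord.IsMetricOn {y : E3 | (y.1, y.2.1) ∈ dom} metric
  metric_fiber : ∀ (x y θ θ' : ℝ), metric (x, y, θ) = metric (x, y, θ')
  /-- The parametrisations of the ends by lattice coordinates. -/
  endMap : Fin N → E3 → E3
  end_smooth : ∀ e, ContDiffOn ℝ ∞ (endMap e) collarSet
  end_mem : ∀ e, ∀ q ∈ collarSet, ((endMap e q).1, (endMap e q).2.1) ∈ dom
  end_shift : ∀ e, ∀ q ∈ collarSet, ∀ i j : ℤ,
    endMap e (q + latShift i j) = endMap e q + (0, 0, ((i + euler e * j : ℤ) : ℝ))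
  end_inj : ∀ e, ∀ q ∈ collarSet, ∀ q' ∈ collarSet, ∀ l : ℤ,
    endMap e q' = endMap e q + (0, 0, (l : ℝ)) → ∃ i j : ℤ, q' = q + latShift i j
  end_fiber : ∀ e, ∀ q ∈ collarSet, ∀ s : ℝ,
    endMap e (q + (0, s, 0)) = endMap e q + (0, 0, s)
  end_inv : ∀ e, ∀ q ∈ collarSet, Function.Bijective (fderiv ℝ (endMap e) q)
  end_pull : ∀ e, ∀ q ∈ collarSet, ∀ u w,
    metric (endMap e q) (fderiv ℝ (endMap e) q u) (fderiv ℝ (endMap e) q w) = latMetric N q u w
  end_disjoint : ∀ e e', e ≠ e' → ∀ q ∈ collarSet, ∀ q' ∈ collarSet,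
    ((endMap e q).1, (endMap e q).2.1) ≠ ((endMap e' q').1, (endMap e' q').2.1)
  /-- The part of the planar domain not beyond the middle of any collar is compact. -/
  core_compact : IsCompact {z ∈ dom | ∀ e, ∀ q ∈ collarSet,
    ((endMap e q).1, (endMap e q).2.1) = z → q.1 ≤ 0}
  /-- The outer half of a collar does not accumulate at points of the domain outside it. -/
  end_closed : ∀ e, ∀ z ∈ dom,
    z ∈ closure ((fun q => ((endMap e q).1, (endMap e q).2.1)) '' {q ∈ collarSet | 0 ≤ q.1}) →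
      ∃ q ∈ collarSet, ((endMap e q).1, (endMap e q).2.1) = z
  /-- Away from the collar middles the curvature is nonpositive. -/
  curv : ∀ y : E3, (y.1, y.2.1) ∈ dom →
    (∀ e, ∀ q ∈ collarSet, |q.1| < 1 → ((endMap e q).1, (endMap e q).2.1) ≠ (y.1, y.2.1)) →
    ∀ u v, metric y (curvature metric y u v v) u ≤ 0
  /-- The base point. -/
  z₀ : ℝ × ℝ
  z₀_mem : z₀ ∈ dom
  /-- Paths from the base point to the middles of the ends. -/
  spoke : Fin N → ℝ → ℝ × ℝ
  spoke_cont : ∀ e, Continuous (spoke e)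
  spoke_mem : ∀ e, ∀ s ∈ Icc (0 : ℝ) 1, spoke e s ∈ dom
  spoke_zero : ∀ e, spoke e 0 = z₀
  spoke_one : ∀ e, spoke e 1 = ((endMap e (0, 0, 0)).1, (endMap e (0, 0, 0)).2.1)
  /-- The boundary loops multiply to a null-homotopic loop, in the order given by `order`. -/
  order : Equiv.Perm (Fin N)
  boundary : ∀ P : Fin N → Path (⟨z₀, z₀_mem⟩ : dom) ⟨z₀, z₀_mem⟩,
    (∀ e (s : unitInterval), ((P e s : dom) : ℝ × ℝ) =
      if (s : ℝ) ≤ 1 / 3 then spoke e (3 * s)
      else if (s : ℝ) ≤ 2 / 3 then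
        ((endMap e (0, 0, 3 * s - 1)).1, (endMap e (0, 0, 3 * s - 1)).2.1)
      else spoke e (3 - 3 * s)) →
    ((List.finRange N).map fun i =>
      FundamentalGroup.fromPath (Path.Homotopic.Quotient.mk (P (order i)))).prod = 1
  /-- A circle valued function on the domain, used for the double cover. -/
  phase : ℝ × ℝ → ℂ
  phase_cont : ContinuousOn phase dom
  phase_norm : ∀ z ∈ dom, ‖phase z‖ = 1
  phase_end : ∀ e, ∃ (ang : E3 → ℝ) (m : ℤ), Odd (m + euler e) ∧ ContinuousOn ang collarSet ∧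
    (∀ q ∈ collarSet, phase ((endMap e q).1, (endMap e q).2.1) =
      Complex.exp ((2 * Real.pi * ang q : ℝ) * Complex.I)) ∧
    ∀ q ∈ collarSet, ∀ i j : ℤ, ang (q + latShift i j) = ang q + ((m * j : ℤ) : ℝ)

end

end Vale.Agent.P255
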